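import Vale.Agent.P314.Defs
import Vale.Agent.P314.Main

namespace Vale.Agent.Results.P314.HittingSet

open Vale.Agent.P314

universe u

theorem result (F : Type u) [Field F] (enc : F → List Bool) :
    ∃ H : (n s : ℕ) → List (MatTuple F n),
      (∀ n s : ℕ, IsHittingSet n s (H n s)) ∧
      ∃ tm : Turing.TM2ComputableInPolyTime encodeInput (id : List Bool → List Bool)
          (fun p : ℕ × ℕ => encodeSet enc (H p.1 p.2)),
        ∀ k, Finite (tm.tm.Γ k) :=
  ⟨hitSet F, hitSet_hits F, hitSet_polyTime F enc⟩

end Vale.Agent.Results.P314.HittingSet
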