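import Vale.Agent.P314.DefsABP
import Vale.Agent.P314.ABP

namespace Vale.Agent.Results.P314.HittingSetABP

open Vale.Agent.P314

universe u

theorem result (F : Type u) [Field F] (enc : F → List Bool) :
    ∃ H : (n s : ℕ) → List (MatTuple F n),
      (∀ n s : ℕ, IsHittingSet n s (H n s) ∧ IsHittingSetABP n s (H n s) ∧
        (H n s).length = 1 ∧ ∀ T ∈ H n s, ∀ l i j, T.mat l i j = 0 ∨ T.mat l i j = 1) ∧
      ∃ tm : Turing.TM2ComputableInPolyTime encodeInput (id : List Bool → List Bool)
          (fun p : ℕ × ℕ => encodeSet enc (H p.1 p.2)),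
        ∀ k, Finite (tm.tm.Γ k) := by
  refine ⟨hitSet F, fun n s => ⟨hitSet_hits F n s, hitSet_hitsABP F n s, rfl, ?_⟩,
    hitSet_polyTime F enc⟩
  intro T hT
  obtain rfl := List.mem_singleton.1 hT
  intro l i j
  simp only [Tmat, Matrix.of_apply]
  split_ifs
  · exact Or.inr rfl
  · exact Or.inl rfl

end Vale.Agent.Results.P314.HittingSetABP
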